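import Vale.Agent.P011Z.Defs

/-!
The measure of an invariant set in the translates of a box.
-/

open Topology MeasureTheory
open scoped ENNReal Pointwise

namespace Vale.Agent.P011Z.Core

section index

variable {B : Type} [Group B] [MeasurableSpace B] [MeasurableMul B]

theorem measure_subgroup (lam : Measure B) {U W : Subgroup B} (hle : W ≤ U)
    [Countable (U ⧸ W.subgroupOf U)] (hW : MeasurableSet (W : Set B))
    (hinv : ∀ u ∈ U, lam ((· * u) ⁻¹' W) = lam W) :
    lam U = (∑' _ : U ⧸ W.subgroupOf U, (1 : ℝ≥0∞)) * lam W := by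
  have e : (U : Set B) = ⋃ c : U ⧸ W.subgroupOf U, (· * (c.out : B)) ⁻¹' W := by
    ext x
    simp only [Set.mem_iUnion, Set.mem_preimage, SetLike.mem_coe]
    refine ⟨fun hx => ⟨QuotientGroup.mk (⟨x, hx⟩ : U)⁻¹, ?_⟩, ?_⟩
    · have h := (QuotientGroup.out_eq' (QuotientGroup.mk (s := W.subgroupOf U) (⟨x, hx⟩ : U)⁻¹)).symm
      rw [QuotientGroup.eq, inv_inv, Subgroup.mem_subgroupOf] at h
      exact h
    · rintro ⟨c, hc⟩
      exact (U.mul_mem_cancel_right c.out.2).1 (hle hc)
  rw [e, measure_iUnion, ← ENNReal.tsum_mul_right]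
  · exact tsum_congr fun c => by rw [hinv _ c.out.2, one_mul]
  · intro c c' hcc
    refine Set.disjoint_left.2 fun x hx hx' => hcc ?_
    rw [← QuotientGroup.out_eq' c, ← QuotientGroup.out_eq' c', QuotientGroup.eq,
      Subgroup.mem_subgroupOf]
    have h := W.mul_mem (W.inv_mem hx) hx'
    simpa [mul_assoc] using h
  · exact fun c => measurable_mul_const _ hW

end index

variable {A B : Type} [Group A] [TopologicalSpace A] [IsTopologicalGroup A] [T2Space A]
  [SecondCountableTopology A] [Group B] [TopologicalSpace B]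
  [IsTopologicalGroup B] [T2Space B] [SecondCountableTopology B]
  [MeasurableSpace A] [BorelSpace A] [MeasurableSpace B] [BorelSpace B]

/-- The box over `V` and `S b`. -/
def box (V : Set A) (b : B) (S : Set B) : Set (A × B) := {x | x.1 ∈ V ∧ x.2 * b⁻¹ ∈ S}

/-- The measure of `E` in the boxes. -/
noncomputable def lam (m : Measure (A × B)) (E : Set (A × B)) (V : Set A) (b : B) : Measure B :=
  (m.restrict (E ∩ Prod.fst ⁻¹' V)).map fun x => x.2 * b⁻¹

omit [Group A] [TopologicalSpace A] [IsTopologicalGroup A] [T2Space A]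
  [SecondCountableTopology A] [T2Space B] [BorelSpace A] [SecondCountableTopology B] in
theorem lam_apply (m : Measure (A × B)) (E : Set (A × B)) (V : Set A) (b : B) {S : Set B}
    (hS : MeasurableSet S) : lam m E V b S = m (E ∩ box V b S) := by
  have hme : Measurable fun x : A × B => x.2 * b⁻¹ := measurable_snd.mul_const _
  rw [lam, Measure.map_apply hme hS, Measure.restrict_apply (hme hS)]
  congr 1
  ext x
  simp only [box, Set.mem_inter_iff, Set.mem_preimage, Set.mem_ofPred_eq]
  tauto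

omit [T2Space A] [T2Space B] [SecondCountableTopology A] in
theorem lam_inv (m : Measure (A × B)) [m.IsMulRightInvariant] {E : Set (A × B)} (V : Set A) (b : B)
    {G₁ : Subgroup B} [hn : G₁.Normal]
    (hE : ∀ g ∈ G₁, (· * ((1, g) : A × B)) ⁻¹' E =ᵐ[m] E) {g : B} (hg : g ∈ G₁) {S : Set B}
    (hS : MeasurableSet S) : lam m E V b ((· * g) ⁻¹' S) = lam m E V b S := by
  rw [lam_apply _ _ _ _ hS, lam_apply _ _ _ _ (measurable_mul_const g hS),
    ← measure_preimage_mul_right m ((1, b⁻¹ * g * b) : A × B) (E ∩ box V b S), Set.preimage_inter]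
  have e : (· * ((1, b⁻¹ * g * b) : A × B)) ⁻¹' box V b S = box V b ((· * g) ⁻¹' S) := by
    ext x
    simp [box, mul_assoc]
  rw [e]
  exact measure_congr ((hE _ (hn.conj_mem' g hg b)).symm.inter (ae_eq_refl _))

omit [IsTopologicalGroup A] [T2Space A] [SecondCountableTopology A] [T2Space B]
  [SecondCountableTopology B] [MeasurableSpace A] [BorelSpace A] [MeasurableSpace B]
  [BorelSpace B] [Group A] in
theorem isCompact_box {V : Set A} (hV : IsCompact V) (b : B) {S : Set B} (hS : IsCompact S) :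
    IsCompact (box V b S) := by
  have e : box V b S = V ×ˢ ((· * b) '' S) := by
    ext x
    simp [box]
  rw [e]
  exact hV.prod (hS.image (continuous_mul_const b))

omit [T2Space A] [T2Space B] in
theorem measure_box (m : Measure (A × B)) [m.IsHaarMeasure] [m.IsMulRightInvariant]
    {E : Set (A × B)} {V : Set A} (hV : IsCompact V) {a : A} (ha : V ∈ 𝓝 a) (b : B)
    {G₁ U : Subgroup B} [G₁.Normal] (hU : U ≤ G₁) (hUc : IsCompact (U : Set B))
    (hUo : IsOpen (U : Set B)) (hE : ∀ g ∈ G₁, (· * ((1, g) : A × B)) ⁻¹' E =ᵐ[m] E) {g : B}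
    (hg : g ∈ G₁) : m (E ∩ box V b ((g⁻¹ * ·) ⁻¹' U)) = m (E ∩ box V b U) := by
  let U' : Subgroup B := U.comap (MulAut.conj g⁻¹).toMonoidHom
  have hmem : ∀ y, y ∈ U' ↔ g⁻¹ * y * g ∈ U := fun y => by simp [U']
  let φ : B ≃ₜ B := (Homeomorph.mulLeft g⁻¹).trans (Homeomorph.mulRight g)
  have eU : (U' : Set B) = φ ⁻¹' U := Set.ext hmem
  have hUc' : IsCompact (U' : Set B) := by
    rw [eU]
    exact φ.isCompact_preimage.2 hUc
  have hUo' : IsOpen (U' : Set B) := by
    rw [eU]
    exact hUo.preimage φ.continuous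
  have hU' : U' ≤ G₁ := fun y hy => by
    have h := G₁.mul_mem (G₁.mul_mem hg (hU ((hmem y).1 hy))) (G₁.inv_mem hg)
    simpa [mul_assoc] using h
  have hWo : IsOpen ((U ⊓ U' : Subgroup B) : Set B) := hUo.inter hUo'
  have hfin : ∀ X : Subgroup B, IsCompact (X : Set B) → Finite (X ⧸ (U ⊓ U').subgroupOf X) :=
    fun X hX => by
      have : CompactSpace X := isCompact_iff_compactSpace.1 hX
      exact Subgroup.quotient_finite_of_isOpen _ (hWo.preimage continuous_subtype_val)
  have := hfin U hUc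
  have := hfin U' hUc'
  have hS : MeasurableSet ((g⁻¹ * ·) ⁻¹' (U : Set B)) := measurable_const_mul _ hUo.measurableSet
  have e1 : (· * g) ⁻¹' ((g⁻¹ * ·) ⁻¹' (U : Set B)) = U' := by
    ext y
    rw [SetLike.mem_coe, hmem, mul_assoc]
    rfl
  have key : ∀ E' : Set (A × B), (∀ g ∈ G₁, (· * ((1, g) : A × B)) ⁻¹' E' =ᵐ[m] E') →
      m (E' ∩ box V b ((g⁻¹ * ·) ⁻¹' U)) = (∑' _ : U' ⧸ (U ⊓ U').subgroupOf U', (1 : ℝ≥0∞)) *
        lam m E' V b (U ⊓ U' : Subgroup B) ∧
      m (E' ∩ box V b U) = (∑' _ : U ⧸ (U ⊓ U').subgroupOf U, (1 : ℝ≥0∞)) *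
        lam m E' V b (U ⊓ U' : Subgroup B) := fun E' hE' => by
    constructor
    · rw [← lam_apply _ _ _ _ hS, ← lam_inv m V b hE' hg hS, e1]
      exact measure_subgroup _ inf_le_right hWo.measurableSet fun u hu =>
        lam_inv m V b hE' (hU' hu) hWo.measurableSet
    · rw [← lam_apply _ _ _ _ hUo.measurableSet]
      exact measure_subgroup _ inf_le_left hWo.measurableSet fun u hu =>
        lam_inv m V b hE' (hU hu) hWo.measurableSet
  obtain ⟨h1, h2⟩ := key Set.univ fun _ _ => by simp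
  have h3 : m (Set.univ ∩ box V b ((g⁻¹ * ·) ⁻¹' U)) = m (Set.univ ∩ box V b U) := by
    rw [Set.univ_inter, Set.univ_inter, ← measure_preimage_mul m ((1, g⁻¹) : A × B) (box V b U)]
    congr 1
    ext x
    simp [box, mul_assoc]
  have h4 : lam m Set.univ V b (U ⊓ U' : Subgroup B) ≠ 0 := by
    rw [lam_apply _ _ _ _ hWo.measurableSet, Set.univ_inter]
    refine (Measure.measure_pos_of_mem_nhds m (x := (a, b)) ?_).ne'
    refine Filter.inter_mem (continuous_fst.continuousAt.preimage_mem_nhds ha) ?_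
    refine ((hWo.preimage (continuous_snd.mul continuous_const)).mem_nhds ?_)
    simp
  have h5 : lam m Set.univ V b (U ⊓ U' : Subgroup B) ≠ ∞ := by
    rw [lam_apply _ _ _ _ hWo.measurableSet, Set.univ_inter]
    refine ne_top_of_le_ne_top (isCompact_box hV b hUc).measure_lt_top.ne (measure_mono ?_)
    exact fun x hx => ⟨hx.1, hx.2.1⟩
  rw [h1, h2, ENNReal.mul_left_inj h4 h5] at h3
  rw [(key E hE).1, (key E hE).2, h3]

end Vale.Agent.P011Z.Core
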