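import Vale.Agent.P011Z.Core.Ind
import Vale.Agent.P011Z.Fund

/-!
An invariant set of finite positive covolume.
-/

open Topology MeasureTheory
open scoped ENNReal Pointwise

namespace Vale.Agent.P011Z.Core

theorem sqrt_sub_sq_le {a b : ℝ} (ha : 0 ≤ a) (hb : 0 ≤ b) : (√a - √b) ^ 2 ≤ |a - b| := by
  have h1 : |a - b| = |√a - √b| * (√a + √b) := by
    have e : a - b = (√a - √b) * (√a + √b) := by
      have := Real.sq_sqrt ha
      have := Real.sq_sqrt hb
      nlinarith
    rw [e, abs_mul, abs_of_nonneg (add_nonneg (Real.sqrt_nonneg a) (Real.sqrt_nonneg b))]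
  rw [h1, ← sq_abs, sq]
  refine mul_le_mul_of_nonneg_left ?_ (abs_nonneg _)
  have := Real.sqrt_nonneg a
  have := Real.sqrt_nonneg b
  rw [abs_le]
  constructor <;> linarith

variable {G : Type} [Group G] [TopologicalSpace G] [IsTopologicalGroup G] [T2Space G]
  [SecondCountableTopology G] [MeasurableSpace G] [BorelSpace G]

omit [IsTopologicalGroup G] [T2Space G] [MeasurableSpace G] [BorelSpace G] in
theorem countable_of_discrete (Γ : Subgroup G) [DiscreteTopology Γ] : Countable Γ :=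
  countable_of_Lindelof_of_discrete

theorem exists_inv_set (Γ N : Subgroup G) [DiscreteTopology Γ] (m : Measure G) [m.IsHaarMeasure]
    [m.IsMulRightInvariant] {r : G → Γ} (hm : ∀ γ : Γ, MeasurableSet {x | r x = γ})
    (hr : ∀ (γ : Γ) x, r (γ * x) = γ * r x) {C₀ : Set G} (hC₀ : IsCompact C₀)
    (hrC : ∀ x, ((r x : Γ) : G)⁻¹ * x ∈ C₀)
    (hR : ∀ (Φ : Finset Γ) (ε : ℝ), 0 < ε → ∃ p : Γ ⧸ N.subgroupOf Γ → ℝ, (∀ s, 0 ≤ p s) ∧
      HasSum p 1 ∧ ∀ γ ∈ Φ, ∑' s, |p (γ • s) - p s| ≤ ε)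
    {B : Type} [Group B] [TopologicalSpace B] (ι : B →* G) (hι : Continuous ι) {G₁ : Subgroup B}
    (hT : HasT G₁) :
    ∃ E : Set G, MeasurableSet E ∧ m E ≠ 0 ∧ (∀ ν : Γ, (ν : G) ∈ N → ∀ x, (ν : G) * x ∈ E ↔ x ∈ E) ∧
      (∀ g ∈ G₁, (· * ι g) ⁻¹' E =ᵐ[m] E) ∧ m (E ∩ dom N r) ≠ ∞ := by
  classical
  have := countable_of_discrete Γ
  obtain ⟨C, hC, δ, hδ, h⟩ := koopman hT
  -- the measure of the fibre
  have hD1 : m {x | r x = 1} ≠ ∞ := by
    refine ne_top_of_le_ne_top hC₀.measure_lt_top.ne (measure_mono fun x hx => ?_)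
    have h1 := hrC x
    have h2 : r x = 1 := hx
    simpa [h2] using h1
  have hD0 : m {x | r x = 1} ≠ 0 := by
    intro h0
    have h1 : m (⋃ γ : Γ, {x | r x = γ}) = 0 := measure_iUnion_null fun γ => by
      have h2 := measure_fib hr m γ 1 (E := Set.univ) (by simp)
      simp only [Set.univ_inter, mul_one] at h2
      rw [h2, h0]
    have e : (⋃ γ : Γ, {x | r x = γ}) = Set.univ := by
      ext x
      simp
    rw [e] at h1
    exact (isOpen_univ.measure_pos m Set.univ_nonempty).ne' h1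
  set d := (m {x | r x = 1}).toReal with hd
  have hd0 : 0 < d := ENNReal.toReal_pos hD0 hD1
  have hdm : m {x | r x = 1} = ENNReal.ofReal d := (ENNReal.ofReal_toReal hD1).symm
  -- the finite set of the cocycle values
  have hfin := finite_of_compact Γ ((hC₀.mul (hC.image hι)).mul hC₀.inv)
  set Φ : Finset Γ := hfin.toFinset with hΦ
  have hcoc : ∀ g ∈ C, ∀ x, ∃ β ∈ Φ, r (x * ι g) = r x * β := by
    intro g hg x
    refine ⟨(r x)⁻¹ * r (x * ι g), ?_, by simp⟩
    rw [hΦ, Set.Finite.mem_toFinset]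
    have e : (((r x)⁻¹ * r (x * ι g) : Γ) : G) = ((r x : G)⁻¹ * x) * ι g *
        ((r (x * ι g) : G)⁻¹ * (x * ι g))⁻¹ := by
      simp [mul_assoc]
    rw [Set.mem_ofPred_eq, e]
    exact Set.mul_mem_mul (Set.mul_mem_mul (hrC x) ⟨g, hg, rfl⟩) (Set.inv_mem_inv.2 (hrC _))
  clear_value Φ
  have hpos : (0 : ℝ) < Φ.card + 1 := Nat.cast_add_one_pos _
  obtain ⟨p, hp0, hp1, hp⟩ := hR (Φ.image (·⁻¹)) (δ / (Φ.card + 1)) (div_pos hδ hpos)
  have hsum : ∀ β : Γ, Summable fun s => |p (β • s) - p s| := fun β =>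
    (((MulAction.toPerm β).summable_iff.2 hp1.summable).sub hp1.summable).abs
  refine Exists.elim (h G (m.restrict (dom N r)) (fun g x => ret N r (x * ι g))
    (fun g => measurePreserving_ret hm hr m _) ?_ ?_ (fun x => √(p (cl N (r x)) / d)) ?_ ?_ ?_) ?_
  rotate_right
  · rintro E₀ ⟨hE₀, h0, h1, hE⟩
    have hme : MeasurableSet (ret N r ⁻¹' E₀) := measurable_ret hm hE₀
    have e : ret N r ⁻¹' E₀ ∩ dom N r = E₀ ∩ dom N r := by
      ext x
      simp only [Set.mem_inter_iff, Set.mem_preimage]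
      exact and_congr_left fun hx => by rw [ret_of_mem hx]
    rw [Measure.restrict_apply hE₀, ← e] at h0 h1
    refine ⟨ret N r ⁻¹' E₀, hme, fun h2 => h0 (measure_mono_null Set.inter_subset_left h2),
      fun ν hν x => ?_, fun g hg => ?_, h1⟩
    · simp only [Set.mem_preimage]
      rw [ret_mul hr hν]
    · have h2 : ∀ᵐ x ∂m.restrict (dom N r), (ret N r (x * ι g) ∈ E₀) = (x ∈ E₀) := hE g hg
      rw [ae_restrict_iff' (measurableSet_dom hm), ae_iff] at h2
      change ∀ᵐ x ∂m, (ret N r (x * ι g) ∈ E₀) = (ret N r x ∈ E₀)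
      rw [ae_iff]
      refine null_of_inv (N := N) hm hr m (fun ν hν x => ?_) (measure_mono_null ?_ h2)
      · change ¬ ((ret N r (ν * x * ι g) ∈ E₀) = (ret N r (ν * x) ∈ E₀)) ↔
          ¬ ((ret N r (x * ι g) ∈ E₀) = (ret N r x ∈ E₀))
        rw [mul_assoc, ret_mul hr hν, ret_mul hr hν]
      · rintro x ⟨hx, hx'⟩ h3
        refine hx ?_
        rw [ret_of_mem hx']
        exact h3 hx'
  · rw [Filter.EventuallyEq, ae_restrict_iff' (measurableSet_dom hm)]
    refine Filter.Eventually.of_forall fun x hx => ?_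
    rw [map_one, mul_one, ret_of_mem hx]
    rfl
  · intro g g'
    funext x
    simp only [Function.comp_apply, map_mul]
    rw [ret_ret_mul hr, mul_assoc]
  · exact measurable_glue hm (Ψ := fun γ _ => √(p (cl N γ) / d)) fun _ => measurable_const
  · have e : ∀ x, ENNReal.ofReal (√(p (cl N (r x)) / d) ^ 2) =
        (fun s => ENNReal.ofReal (p s / d)) (cl N (r x)) := fun x => by
      rw [Real.sq_sqrt (div_nonneg (hp0 _) hd0.le)]
    simp only [e]
    rw [lintegral_dom hm hr m fun s => ENNReal.ofReal (p s / d), hdm,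
      ← ENNReal.ofReal_tsum_of_nonneg (fun s => div_nonneg (hp0 _) hd0.le)
        (hp1.summable.div_const d), (hp1.div_const d).tsum_eq,
      ← ENNReal.ofReal_mul (by positivity), one_div_mul_cancel hd0.ne', ENNReal.ofReal_one]
  · intro g hg
    have hle : ∀ x, ENNReal.ofReal ((√(p (cl N (r (ret N r (x * ι g)))) / d) -
        √(p (cl N (r x)) / d)) ^ 2) ≤
        (fun s => ENNReal.ofReal ((∑ β ∈ Φ, |p (β⁻¹ • s) - p s|) / d)) (cl N (r x)) := by
      intro x
      obtain ⟨β, hβ, e⟩ := hcoc g hg x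
      rw [r_ret hr, cl_rep, e, cl_mul_right]
      refine ENNReal.ofReal_le_ofReal ((sqrt_sub_sq_le (div_nonneg (hp0 _) hd0.le)
        (div_nonneg (hp0 _) hd0.le)).trans ?_)
      rw [← sub_div, abs_div, abs_of_pos hd0]
      refine div_le_div_of_nonneg_right ?_ hd0.le
      exact Finset.single_le_sum (f := fun β : Γ => |p (β⁻¹ • cl N (r x)) - p (cl N (r x))|)
        (fun _ _ => abs_nonneg _) hβ
    refine (lintegral_mono hle).trans ?_
    have hs : Summable fun s => ∑ β ∈ Φ, |p (β⁻¹ • s) - p s| :=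
      summable_sum fun β _ => hsum β⁻¹
    rw [lintegral_dom hm hr m fun s => ENNReal.ofReal ((∑ β ∈ Φ, |p (β⁻¹ • s) - p s|) / d), hdm,
      ← ENNReal.ofReal_tsum_of_nonneg (fun s => by positivity) (hs.div_const d),
      ← ENNReal.ofReal_mul (tsum_nonneg fun s => by positivity), tsum_div_const,
      div_mul_cancel₀ _ hd0.ne', Summable.tsum_finsetSum fun β _ => hsum β⁻¹]
    refine ENNReal.ofReal_le_ofReal ?_
    refine (Finset.sum_le_card_nsmul _ _ (δ / (Φ.card + 1)) fun β hβ =>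
      hp _ (Finset.mem_image_of_mem _ hβ)).trans ?_
    rw [nsmul_eq_mul, ← mul_div_assoc, div_le_iff₀ hpos]
    nlinarith

end Vale.Agent.P011Z.Core
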