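import Vale.Agent.P011Z.Core.Koop

/-!
Induction: the action by right translations on a fundamental domain of `Γ ⊓ N`.
-/

open Topology MeasureTheory
open scoped ENNReal

namespace Vale.Agent.P011Z.Core

variable {G : Type} [Group G] {Γ : Subgroup G} (N : Subgroup G) (r : G → Γ)

/-- The class of the inverse. -/
def cl (γ : Γ) : Γ ⧸ N.subgroupOf Γ := QuotientGroup.mk γ⁻¹

/-- The chosen representative of the right coset of `γ`. -/
noncomputable def rep (γ : Γ) : Γ := ((cl N γ).out)⁻¹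

/-- The fundamental domain. -/
def dom : Set G := {x | rep N (r x) = r x}

/-- The retraction onto the fundamental domain. -/
noncomputable def ret (x : G) : G := ((rep N (r x) * (r x)⁻¹ : Γ) : G) * x

variable {N r}

theorem cl_mul {ν : Γ} (hν : (ν : G) ∈ N) (γ : Γ) : cl N (ν * γ) = cl N γ := by
  rw [cl, cl, QuotientGroup.eq, Subgroup.mem_subgroupOf]
  simpa using hν

theorem cl_mul_right (γ β : Γ) : cl N (γ * β) = β⁻¹ • cl N γ := by
  rw [cl, cl, mul_inv_rev]
  rfl

theorem cl_out (s : Γ ⧸ N.subgroupOf Γ) : cl N (s.out)⁻¹ = s := by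
  rw [cl, inv_inv, QuotientGroup.out_eq']

theorem cl_rep (γ : Γ) : cl N (rep N γ) = cl N γ := cl_out _

theorem rep_rep (γ : Γ) : rep N (rep N γ) = rep N γ := by rw [rep, cl_rep, ← rep]

theorem rep_mul {ν : Γ} (hν : (ν : G) ∈ N) (γ : Γ) : rep N (ν * γ) = rep N γ := by
  rw [rep, cl_mul hν, rep]

theorem rep_mem (γ : Γ) : ((rep N γ * γ⁻¹ : Γ) : G) ∈ N := by
  have h := cl_rep (N := N) γ
  rw [cl, cl, QuotientGroup.eq, Subgroup.mem_subgroupOf, inv_inv] at h
  exact h

section equiv

variable (hr : ∀ (γ : Γ) x, r (γ * x) = γ * r x)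
include hr

theorem r_ret (x : G) : r (ret N r x) = rep N (r x) := by
  rw [ret, hr, inv_mul_cancel_right]

theorem ret_mem (x : G) : ret N r x ∈ dom N r := by
  change rep N (r (ret N r x)) = r (ret N r x)
  rw [r_ret hr, rep_rep]

theorem ret_mul {ν : Γ} (hν : (ν : G) ∈ N) (x : G) : ret N r (ν * x) = ret N r x := by
  rw [ret, ret, hr, rep_mul hν]
  simp [mul_assoc]

theorem ret_ret_mul (x g : G) : ret N r (ret N r x * g) = ret N r (x * g) := by
  conv_lhs => rw [ret.eq_1 N r x, mul_assoc]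
  exact ret_mul hr (rep_mem _) _

omit hr in
theorem ret_of_mem {x : G} (hx : x ∈ dom N r) : ret N r x = x := by
  have h : rep N (r x) = r x := hx
  rw [ret, h]
  simp

theorem existsUnique_dom (x : G) : ∃! ν : (Γ ⊓ N : Subgroup G), ν • x ∈ dom N r := by
  refine ⟨⟨((rep N (r x) * (r x)⁻¹ : Γ) : G), Subtype.prop _, rep_mem _⟩, ret_mem hr x, ?_⟩
  rintro ⟨ν, h1, h2⟩ hν
  have h : rep N (r ((⟨ν, h1⟩ : Γ) * x)) = r ((⟨ν, h1⟩ : Γ) * x) := hν
  rw [hr, rep_mul h2] at h
  refine Subtype.ext ?_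
  change ν = ((rep N (r x) * (r x)⁻¹ : Γ) : G)
  rw [h]
  simp

end equiv

variable [MeasurableSpace G] [MeasurableMul G] [Countable Γ]

section meas

variable (hm : ∀ γ : Γ, MeasurableSet {x | r x = γ})
include hm

omit [MeasurableMul G] in
theorem measurable_glue {Y : Type} [MeasurableSpace Y] {Ψ : Γ → G → Y}
    (hΨ : ∀ γ, Measurable (Ψ γ)) : Measurable fun x => Ψ (r x) x := by
  intro s hs
  have e : (fun x => Ψ (r x) x) ⁻¹' s = ⋃ γ, {x | r x = γ} ∩ Ψ γ ⁻¹' s := by
    ext x
    simp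
  rw [e]
  exact MeasurableSet.iUnion fun γ => (hm γ).inter (hΨ γ hs)

theorem measurable_ret : Measurable (ret N r) :=
  measurable_glue hm (Ψ := fun γ x => ((rep N γ * γ⁻¹ : Γ) : G) * x) fun _ =>
    measurable_const_mul _

omit [MeasurableMul G] in
theorem measurableSet_dom : MeasurableSet (dom N r) :=
  (measurable_glue hm (Ψ := fun γ _ => rep N γ = γ) fun _ => measurable_const).setOf

variable (hr : ∀ (γ : Γ) x, r (γ * x) = γ * r x) (m : Measure G)
include hr

omit [MeasurableMul G] in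
theorem isFund : IsFundamentalDomain (Γ ⊓ N : Subgroup G) (dom N r) m :=
  IsFundamentalDomain.mk' (measurableSet_dom hm).nullMeasurableSet (existsUnique_dom hr)

theorem isFund_mul (g : G) :
    IsFundamentalDomain (Γ ⊓ N : Subgroup G) ((· * g) ⁻¹' dom N r) m :=
  IsFundamentalDomain.mk' (measurable_mul_const g (measurableSet_dom hm)).nullMeasurableSet
    fun x => by
      have h := existsUnique_dom (N := N) hr (x * g)
      simpa [Subgroup.smul_def, mul_assoc] using h

omit hm hr [MeasurableSpace G] [MeasurableMul G] in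
theorem countable_inf : Countable (Γ ⊓ N : Subgroup G) :=
  (Subgroup.inclusion_injective (inf_le_left : Γ ⊓ N ≤ Γ)).countable

variable [m.IsMulLeftInvariant]

theorem measurePreserving_ret [m.IsMulRightInvariant] (g : G) :
    MeasurePreserving (fun x => ret N r (x * g)) (m.restrict (dom N r))
      (m.restrict (dom N r)) := by
  have := countable_inf (Γ := Γ) (N := N)
  have hme : Measurable fun x => ret N r (x * g) :=
    (measurable_ret hm).comp (measurable_mul_const g)
  refine ⟨hme, Measure.ext fun E hE => ?_⟩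
  rw [Measure.map_apply hme hE, Measure.restrict_apply (hme hE), Measure.restrict_apply hE]
  have h1 := (isFund (N := N) hm hr m).measure_set_eq (isFund_mul hm hr m g) (hme hE) fun ν => by
    ext x
    have h := ret_mul (N := N) hr (ν := ⟨ν.1, ν.2.1⟩) ν.2.2 (x * g)
    simp only [Set.mem_preimage, Subgroup.smul_def, smul_eq_mul, mul_assoc]
    rw [h]
  rw [h1]
  have e : (fun x => ret N r (x * g)) ⁻¹' E ∩ (· * g) ⁻¹' dom N r =
      (· * g) ⁻¹' (E ∩ dom N r) := by
    ext x
    simp only [Set.mem_inter_iff, Set.mem_preimage]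
    refine and_congr_left fun hx => ?_
    rw [ret_of_mem hx]
  rw [e, measure_preimage_mul_right]

theorem null_of_inv {S : Set G} (hS : ∀ ν : Γ, (ν : G) ∈ N → ∀ x, (ν : G) * x ∈ S ↔ x ∈ S)
    (h0 : m (S ∩ dom N r) = 0) : m S = 0 := by
  have := countable_inf (Γ := Γ) (N := N)
  refine (isFund (N := N) hm hr m).measure_zero_of_invariant S (fun ν => ?_) h0
  ext x
  rw [Set.mem_smul_set_iff_inv_smul_mem]
  exact hS ⟨(ν⁻¹).1, (ν⁻¹).2.1⟩ (ν⁻¹).2.2 x

omit hm [Countable Γ] in
theorem measure_fib (γ δ : Γ) {E : Set G} (hE : ∀ x, (γ : G) * x ∈ E ↔ x ∈ E) :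
    m (E ∩ {x | r x = γ * δ}) = m (E ∩ {x | r x = δ}) := by
  rw [← measure_preimage_mul m (γ : G)]
  congr 1
  ext x
  simp only [Set.mem_preimage, Set.mem_inter_iff, Set.mem_ofPred_eq, hE, hr, mul_right_inj]

omit hm hr [MeasurableSpace G] [MeasurableMul G] [Countable Γ] in
theorem dom_eq : dom N r = ⋃ s : Γ ⧸ N.subgroupOf Γ, {x | r x = (s.out)⁻¹} := by
  ext x
  simp only [Set.mem_iUnion, Set.mem_ofPred_eq]
  refine ⟨fun h => ⟨cl N (r x), Eq.symm h⟩, ?_⟩
  rintro ⟨s, hs⟩
  change rep N (r x) = r x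
  rw [hs, rep, cl_out]

omit hm hr [MeasurableSpace G] [MeasurableMul G] [Countable Γ] in
theorem fib_disjoint : Pairwise (Function.onFun Disjoint
    fun s : Γ ⧸ N.subgroupOf Γ => {x | r x = (s.out)⁻¹}) := by
  intro s t hst
  refine Set.disjoint_left.2 fun x hs ht => hst ?_
  have h1 : r x = (s.out)⁻¹ := hs
  have h2 : r x = (t.out)⁻¹ := ht
  rw [← cl_out s, ← h1, h2, cl_out]

theorem lintegral_dom (e : Γ ⧸ N.subgroupOf Γ → ℝ≥0∞) :
    ∫⁻ x in dom N r, e (cl N (r x)) ∂m = (∑' s, e s) * m {x | r x = 1} := by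
  have : Countable (Γ ⧸ N.subgroupOf Γ) := QuotientGroup.mk_surjective.countable
  rw [dom_eq, lintegral_iUnion (fun s => hm _) fib_disjoint, ← ENNReal.tsum_mul_right]
  refine tsum_congr fun s => ?_
  rw [setLIntegral_congr_fun (hm _) (g := fun _ => e s) fun x hx => by
    have h1 : r x = (s.out)⁻¹ := hx
    simp only [h1, cl_out], setLIntegral_const]
  have h := measure_fib hr m (s.out)⁻¹ 1 (E := Set.univ) (by simp)
  simp only [Set.univ_inter, mul_one] at h
  rw [h]

omit hr [MeasurableMul G] [m.IsMulLeftInvariant] in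
theorem measure_dom {E : Set G} (hE : MeasurableSet E) :
    m (E ∩ dom N r) = ∑' s : Γ ⧸ N.subgroupOf Γ, m (E ∩ {x | r x = (s.out)⁻¹}) := by
  have : Countable (Γ ⧸ N.subgroupOf Γ) := QuotientGroup.mk_surjective.countable
  rw [dom_eq, Set.inter_iUnion, measure_iUnion]
  · exact fun s t hst => (fib_disjoint hst).mono Set.inter_subset_right Set.inter_subset_right
  · exact fun s => hE.inter (hm _)

end meas

end Vale.Agent.P011Z.Core
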