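import Vale.Agent.P011Z.Defs

/-!
Property (T) for measure preserving actions: an almost invariant function gives an invariant set.
-/

open Topology MeasureTheory
open scoped ENNReal

namespace Vale.Agent.P011Z.Core

variable {X : Type} [MeasurableSpace X] {μ : Measure X}

theorem eLpNorm_two (f : X → ℝ) :
    eLpNorm f 2 μ = (∫⁻ x, ENNReal.ofReal (f x ^ 2) ∂μ) ^ (1 / 2 : ℝ) := by
  rw [eLpNorm_eq_lintegral_rpow_enorm_toReal (by norm_num) (by norm_num)]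
  simp only [ENNReal.toReal_ofNat]
  congr 1
  refine lintegral_congr fun x => ?_
  rw [← sq_abs, ENNReal.ofReal_pow (abs_nonneg _), Real.enorm_eq_ofReal_abs, ENNReal.rpow_two]

variable {B : Type} [Group B]

/-- The representation on square integrable functions. -/
theorem exists_rep (T : B → X → X) (hT : ∀ g, MeasurePreserving (T g) μ μ) (h1 : T 1 =ᵐ[μ] id)
    (hm : ∀ g h, T h ∘ T g = T (g * h)) :
    ∃ π : B →* (Lp ℝ 2 μ ≃ₗᵢ[ℝ] Lp ℝ 2 μ), ∀ g v, π g v =ᵐ[μ] v ∘ T g := by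
  let U : B → Lp ℝ 2 μ →ₗᵢ[ℝ] Lp ℝ 2 μ := fun g => Lp.compMeasurePreservingₗᵢ ℝ (T g) (hT g)
  have hU : ∀ g v, U g v =ᵐ[μ] v ∘ T g := fun g v => Lp.coeFn_compMeasurePreserving v (hT g)
  have hU1 : ∀ v, U 1 v = v := fun v => by
    refine Lp.ext ((hU 1 v).trans ?_)
    filter_upwards [h1] with x hx
    simp [hx]
  have hUm : ∀ g h v, U (g * h) v = U g (U h v) := fun g h v => by
    refine Lp.ext ((hU _ v).trans ?_)
    refine Filter.EventuallyEq.symm ((hU g _).trans ?_)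
    rw [← hm, ← Function.comp_assoc]
    exact (hT g).quasiMeasurePreserving.ae_eq_comp (hU h v)
  have hs : ∀ g, Function.Surjective (U g) := fun g v =>
    ⟨U g⁻¹ v, by rw [← hUm, mul_inv_cancel, hU1]⟩
  refine ⟨MonoidHom.mk' (fun g => LinearIsometryEquiv.ofSurjective (U g) (hs g)) fun g h => ?_,
    fun g v => hU g v⟩
  ext1 v
  exact hUm g h v

theorem exists_level {ξ : Lp ℝ 2 μ} (h0 : ξ ≠ 0) :
    ∃ t : ℝ, μ {x | t ≤ |ξ x|} ≠ 0 ∧ μ {x | t ≤ |ξ x|} ≠ ∞ := by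
  have h1 : ∃ k : ℕ, μ {x | 1 / ((k : ℝ) + 1) ≤ |ξ x|} ≠ 0 := by
    by_contra h
    push Not at h
    refine h0 (Lp.ext (Filter.EventuallyEq.trans ?_ (Lp.coeFn_zero ℝ 2 μ).symm))
    have h2 := measure_iUnion_null h
    refine measure_mono_null (fun x hx => ?_) h2
    have h3 : 0 < |ξ x| := abs_pos.2 hx
    obtain ⟨k, hk⟩ := exists_nat_one_div_lt h3
    exact Set.mem_iUnion.2 ⟨k, hk.le⟩
  obtain ⟨k, hk⟩ := h1
  refine ⟨_, hk, ne_of_lt ?_⟩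
  have hp : (0 : ℝ) < 1 / ((k : ℝ) + 1) := Nat.one_div_pos_of_nat
  have h2 := (Lp.memLp ξ).meas_ge_lt_top (ε := ⟨_, hp.le⟩) (by norm_num) (by norm_num)
    (fun h => hp.ne' (congrArg NNReal.toReal h))
  exact h2

theorem koopman [TopologicalSpace B] {G₁ : Subgroup B} (hG : HasT G₁) :
    ∃ C : Set B, IsCompact C ∧ ∃ δ : ℝ, 0 < δ ∧ ∀ (X : Type) [MeasurableSpace X] (μ : Measure X)
      (T : B → X → X), (∀ g, MeasurePreserving (T g) μ μ) → T 1 =ᵐ[μ] id →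
      (∀ g h, T h ∘ T g = T (g * h)) → ∀ f : X → ℝ, Measurable f →
      ∫⁻ x, ENNReal.ofReal (f x ^ 2) ∂μ = 1 →
      (∀ g ∈ C, ∫⁻ x, ENNReal.ofReal ((f (T g x) - f x) ^ 2) ∂μ ≤ ENNReal.ofReal δ) →
      ∃ E : Set X, MeasurableSet E ∧ μ E ≠ 0 ∧ μ E ≠ ∞ ∧ ∀ g ∈ G₁, T g ⁻¹' E =ᵐ[μ] E := by
  obtain ⟨C, hC, δ, hδ, h⟩ := hG
  refine ⟨C, hC, δ ^ 2, by positivity, fun X _ μ T hT h1 hm f hf hf1 hfC => ?_⟩
  obtain ⟨π, hπ⟩ := exists_rep T hT h1 hm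
  have hn : eLpNorm f 2 μ = 1 := by rw [eLpNorm_two, hf1, ENNReal.one_rpow]
  have hL : MemLp f 2 μ := ⟨hf.aestronglyMeasurable, by rw [hn]; exact ENNReal.one_lt_top⟩
  obtain ⟨ξ, h0, hξ⟩ := h (Lp ℝ 2 μ) π (hL.toLp f) (by rw [Lp.norm_toLp, hn]; rfl) fun g hg => by
    have e : ((π g (hL.toLp f) - hL.toLp f : Lp ℝ 2 μ) : X → ℝ) =ᵐ[μ]
        fun x => f (T g x) - f x := by
      filter_upwards [Lp.coeFn_sub (π g (hL.toLp f)) (hL.toLp f), hπ g (hL.toLp f),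
        hL.coeFn_toLp, (hT g).quasiMeasurePreserving.ae_eq_comp hL.coeFn_toLp] with x h2 h3 h4 h5
      rw [h2, Pi.sub_apply, h3, h4, h5]
      rfl
    rw [Lp.norm_def, eLpNorm_congr_ae e, eLpNorm_two]
    refine ENNReal.toReal_le_of_le_ofReal hδ.le ?_
    refine (ENNReal.rpow_le_rpow (hfC g hg) (by norm_num)).trans_eq ?_
    rw [ENNReal.ofReal_pow hδ.le, ← ENNReal.rpow_two, ← ENNReal.rpow_mul]
    norm_num
  obtain ⟨t, ht0, ht1⟩ := exists_level h0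
  refine ⟨{x | t ≤ |ξ x|}, measurableSet_le measurable_const
    (Lp.stronglyMeasurable ξ).measurable.abs, ht0, ht1, fun g hg => ?_⟩
  have h2 := hπ g ξ
  rw [hξ g hg] at h2
  filter_upwards [h2] with x hx
  change (t ≤ |ξ (T g x)|) = (t ≤ |ξ x|)
  rw [hx]
  rfl

end Vale.Agent.P011Z.Core
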